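import Mathlib

/-!
Ordered residue blocks for sets without square differences: residues modulo `M ^ 2` with a
rank, such that a congruence `s ≡ s' + z ^ 2` between different residues forces the rank to drop.
-/

namespace Vale.Agent.P042

/-- `C` residues modulo `M ^ 2`, ranked below `K`, with squares lowering the rank. -/
def IsBlock (M C K : ℕ) : Prop :=
  ∃ (R : Finset ℕ) (f : ℕ → ℕ), R.card = C ∧ (∀ s ∈ R, s < M ^ 2) ∧ (∀ s ∈ R, f s < K) ∧
    ∀ s ∈ R, ∀ s' ∈ R, ∀ z : ℕ, s ≠ s' → s ≡ s' + z ^ 2 [MOD M ^ 2] → f s < f s'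

theorem isBlock_one : IsBlock 1 1 1 :=
  ⟨{0}, fun _ => 0, by simp, by simp, by simp, by simp⟩

/-- Lexicographic composition: the ranks multiply. -/
theorem IsBlock.lex {M₁ C₁ K₁ M₂ C₂ K₂ : ℕ} (hM : 0 < M₁) (h₁ : IsBlock M₁ C₁ K₁)
    (h₂ : IsBlock M₂ C₂ K₂) : IsBlock (M₁ * M₂) (C₁ * C₂) (K₁ * K₂) := by
  obtain ⟨R₁, f₁, hc₁, hlt₁, hf₁, hp₁⟩ := h₁
  obtain ⟨R₂, f₂, hc₂, hlt₂, hf₂, hp₂⟩ := h₂
  have hQ : 0 < M₁ ^ 2 := by positivity
  have hmod : ∀ a ∈ R₁, ∀ b : ℕ, (a + M₁ ^ 2 * b) % M₁ ^ 2 = a := fun a ha b => by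
    rw [Nat.add_mul_mod_self_left, Nat.mod_eq_of_lt (hlt₁ a ha)]
  have hdiv : ∀ a ∈ R₁, ∀ b : ℕ, (a + M₁ ^ 2 * b) / M₁ ^ 2 = b := fun a ha b => by
    rw [Nat.add_mul_div_left _ _ hQ, Nat.div_eq_of_lt (hlt₁ a ha), zero_add]
  refine ⟨(R₁ ×ˢ R₂).image fun x => x.1 + M₁ ^ 2 * x.2,
    fun s => f₁ (s % M₁ ^ 2) * K₂ + f₂ (s / M₁ ^ 2), ?_, ?_, ?_, ?_⟩
  · rw [Finset.card_image_of_injOn, Finset.card_product, hc₁, hc₂]
    rintro ⟨a, b⟩ hx ⟨a', b'⟩ hy h
    simp only [Finset.mem_coe, Finset.mem_product] at hx hy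
    simp only at h
    have e1 := congrArg (· % M₁ ^ 2) h
    have e2 := congrArg (· / M₁ ^ 2) h
    simp only [hmod a hx.1, hmod a' hy.1] at e1
    simp only [hdiv a hx.1, hdiv a' hy.1] at e2
    rw [e1, e2]
  all_goals simp only [Finset.forall_mem_image, Prod.forall, Finset.mem_product, and_imp]
  · intro a b ha hb
    have h1 := hlt₁ a ha
    have h2 : M₁ ^ 2 * (b + 1) ≤ M₁ ^ 2 * M₂ ^ 2 := Nat.mul_le_mul_left _ (hlt₂ b hb)
    rw [mul_pow]
    linarith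
  · intro a b ha hb
    rw [hmod a ha b, hdiv a ha b]
    have h1 : (f₁ a + 1) * K₂ ≤ K₁ * K₂ := Nat.mul_le_mul_right _ (hf₁ a ha)
    have h2 := hf₂ b hb
    linarith
  · intro a b ha hb a' b' ha' hb' z hne h
    rw [hmod a ha b, hdiv a ha b, hmod a' ha' b', hdiv a' ha' b']
    rw [mul_pow] at h
    have h1 : a ≡ a' + z ^ 2 [MOD M₁ ^ 2] := by
      have := h.of_mul_right (M₂ ^ 2)
      simpa [Nat.ModEq, Nat.add_mul_mod_self_left, add_right_comm _ (M₁ ^ 2 * b')] using this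
    by_cases haa : a = a'
    · subst haa
      have hz : M₁ ^ 2 ∣ z ^ 2 := by
        have h0 : a + 0 ≡ a + z ^ 2 [MOD M₁ ^ 2] := by rwa [add_zero]
        exact Nat.modEq_zero_iff_dvd.1 (Nat.ModEq.add_left_cancel' a h0).symm
      obtain ⟨w, rfl⟩ := (Nat.pow_dvd_pow_iff two_ne_zero).1 hz
      have h2 : a + M₁ ^ 2 * b ≡ a + M₁ ^ 2 * (b' + w ^ 2) [MOD M₁ ^ 2 * M₂ ^ 2] := by
        rw [mul_add, ← add_assoc]
        simpa only [mul_pow] using h
      have h3 := hp₂ b hb b' hb' w (fun hbb => hne (by rw [hbb]))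
        (Nat.ModEq.mul_left_cancel' hQ.ne' (Nat.ModEq.add_left_cancel' a h2))
      linarith
    · have h3 : (f₁ a + 1) * K₂ ≤ f₁ a' * K₂ := Nat.mul_le_mul_right _ (hp₁ a ha a' ha' z haa h1)
      have h4 := hf₂ b hb
      linarith

theorem IsBlock.pow {M C K : ℕ} (hM : 0 < M) (h : IsBlock M C K) :
    ∀ j : ℕ, IsBlock (M ^ j) (C ^ j) (K ^ j)
  | 0 => by simpa using isBlock_one
  | j + 1 => by
    simpa only [pow_succ] using IsBlock.lex (pow_pos hM j) (IsBlock.pow hM h j) h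

/-- Coprime blocks in parallel: the ranks add. -/
theorem IsBlock.prod {M₁ C₁ K₁ M₂ C₂ K₂ : ℕ} (hcop : Nat.Coprime M₁ M₂) (hM₁ : 0 < M₁)
    (hM₂ : 0 < M₂) (h₁ : IsBlock M₁ C₁ K₁) (h₂ : IsBlock M₂ C₂ K₂) :
    IsBlock (M₁ * M₂) (C₁ * C₂) (K₁ + K₂ - 1) := by
  obtain ⟨R₁, f₁, hc₁, hlt₁, hf₁, hp₁⟩ := h₁
  obtain ⟨R₂, f₂, hc₂, hlt₂, hf₂, hp₂⟩ := h₂
  have hco : Nat.Coprime (M₁ ^ 2) (M₂ ^ 2) := hcop.pow 2 2
  have hQ₁ : M₁ ^ 2 ≠ 0 := (pow_pos hM₁ 2).ne'
  have hQ₂ : M₂ ^ 2 ≠ 0 := (pow_pos hM₂ 2).ne'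
  let e : ℕ × ℕ → ℕ := fun x => (Nat.chineseRemainder hco x.1 x.2 : ℕ)
  have he₁ : ∀ a ∈ R₁, ∀ b : ℕ, e (a, b) % M₁ ^ 2 = a := fun a ha b =>
    Eq.trans (Nat.chineseRemainder hco a b).2.1 (Nat.mod_eq_of_lt (hlt₁ a ha))
  have he₂ : ∀ a : ℕ, ∀ b ∈ R₂, e (a, b) % M₂ ^ 2 = b := fun a b hb =>
    Eq.trans (Nat.chineseRemainder hco a b).2.2 (Nat.mod_eq_of_lt (hlt₂ b hb))
  refine ⟨(R₁ ×ˢ R₂).image e, fun s => f₁ (s % M₁ ^ 2) + f₂ (s % M₂ ^ 2), ?_, ?_, ?_, ?_⟩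
  · rw [Finset.card_image_of_injOn, Finset.card_product, hc₁, hc₂]
    rintro ⟨a, b⟩ hx ⟨a', b'⟩ hy h
    simp only [Finset.mem_coe, Finset.mem_product] at hx hy
    rw [← he₁ a hx.1 b, ← he₁ a' hy.1 b', h]
    conv_lhs => rw [← he₂ a b hx.2, h, he₂ a' b' hy.2]
  all_goals simp only [Finset.forall_mem_image, Prod.forall, Finset.mem_product, and_imp]
  · intro a b _ _
    rw [mul_pow]
    exact Nat.chineseRemainder_lt_mul hco a b hQ₁ hQ₂
  · intro a b ha hb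
    rw [he₁ a ha b, he₂ a b hb]
    have h1 := hf₁ a ha
    have h2 := hf₂ b hb
    omega
  · intro a b ha hb a' b' ha' hb' z hne h
    rw [he₁ a ha b, he₂ a b hb, he₁ a' ha' b', he₂ a' b' hb']
    rw [mul_pow] at h
    have g₁ : a ≡ a' + z ^ 2 [MOD M₁ ^ 2] :=
      ((Nat.chineseRemainder hco a b).2.1.symm.trans (h.of_mul_right _)).trans
        (Nat.ModEq.add_right _ (Nat.chineseRemainder hco a' b').2.1)
    have g₂ : b ≡ b' + z ^ 2 [MOD M₂ ^ 2] :=
      ((Nat.chineseRemainder hco a b).2.2.symm.trans (h.of_mul_left _)).trans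
        (Nat.ModEq.add_right _ (Nat.chineseRemainder hco a' b').2.2)
    by_cases haa : a = a'
    · subst haa
      have hbb : b ≠ b' := fun hbb => hne (by rw [hbb])
      have := hp₂ b hb b' hb' z hbb g₂
      omega
    · have h1 := hp₁ a ha a' ha' z haa g₁
      by_cases hbb : b = b'
      · subst hbb
        omega
      · have := hp₂ b hb b' hb' z hbb g₂
        omega

/-- A transitive list of residues modulo `p`, all of whose forward steps are squares, gives a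
block: `p` free residues above each member. -/
theorem isBlock_chain {p : ℕ} (hp : p.Prime) (c : List ℕ) (hnd : c.Nodup)
    (hlt : ∀ a ∈ c, a < p)
    (hsq : ∀ i < c.length, ∀ j < c.length, ∀ z < p,
      c.getD i 0 = (c.getD j 0 + z ^ 2) % p → j ≤ i) :
    IsBlock p (p * c.length) c.length := by
  classical
  have hgd : ∀ i < c.length, ∀ a, c.getD i 0 = a → c.idxOf a = i ∧ a ∈ c := by
    intro i hi a ha
    rw [List.getD_eq_getElem c 0 hi] at ha
    subst ha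
    exact ⟨hnd.idxOf_getElem i hi, List.getElem_mem hi⟩
  have hdig : ∀ x < p * c.length, c.getD (x / p) 0 < p := fun x hx => by
    have hi : x / p < c.length := (Nat.div_lt_iff_lt_mul hp.pos).2 (by rwa [mul_comm])
    exact hlt _ (hgd _ hi _ rfl).2
  refine ⟨(Finset.range (p * c.length)).image fun x => c.getD (x / p) 0 + p * (x % p),
    fun s => c.length - 1 - c.idxOf (s % p), ?_, ?_, ?_, ?_⟩
  · rw [Finset.card_image_of_injOn, Finset.card_range]
    intro x hx y hy h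
    simp only [Finset.coe_range, Set.mem_Iio] at hx hy
    simp only at h
    have e1 := congrArg (· % p) h
    have e2 := congrArg (· / p) h
    simp only [Nat.add_mul_mod_self_left, Nat.mod_eq_of_lt (hdig x hx),
      Nat.mod_eq_of_lt (hdig y hy)] at e1
    simp only [Nat.add_mul_div_left _ _ hp.pos, Nat.div_eq_of_lt (hdig x hx),
      Nat.div_eq_of_lt (hdig y hy), zero_add] at e2
    have hi : x / p < c.length := (Nat.div_lt_iff_lt_mul hp.pos).2 (by rwa [mul_comm])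
    have hj : y / p < c.length := (Nat.div_lt_iff_lt_mul hp.pos).2 (by rwa [mul_comm])
    have e3 : x / p = y / p := by
      rw [← (hgd _ hi _ e1).1, (hgd _ hj _ rfl).1]
    rw [← Nat.div_add_mod x p, e2, e3, Nat.div_add_mod]
  all_goals simp only [Finset.forall_mem_image, Finset.mem_range]
  · intro x hx
    have h1 := hdig x hx
    have h2 : p * (x % p + 1) ≤ p * p := Nat.mul_le_mul_left _ (Nat.mod_lt _ hp.pos)
    rw [sq]
    linarith
  · intro x hx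
    have : 0 < c.length := Nat.pos_of_ne_zero fun h => by simp [h] at hx
    omega
  · intro x hx y hy z hne h
    have hi : x / p < c.length := (Nat.div_lt_iff_lt_mul hp.pos).2 (by rwa [mul_comm])
    have hj : y / p < c.length := (Nat.div_lt_iff_lt_mul hp.pos).2 (by rwa [mul_comm])
    simp only [Nat.add_mul_mod_self_left, Nat.mod_eq_of_lt (hdig x hx),
      Nat.mod_eq_of_lt (hdig y hy), (hgd _ hi _ rfl).1, (hgd _ hj _ rfl).1]
    have hp2 : p ∣ p ^ 2 := dvd_pow_self p two_ne_zero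
    have h1 : c.getD (x / p) 0 = (c.getD (y / p) 0 + (z % p) ^ 2) % p := by
      have := h.of_dvd hp2
      rw [Nat.ModEq, Nat.add_mul_mod_self_left, Nat.mod_eq_of_lt (hdig x hx), Nat.add_right_comm,
        Nat.add_mul_mod_self_left] at this
      rw [this, Nat.add_mod, Nat.pow_mod, ← Nat.add_mod]
    rcases (hsq _ hi _ hj _ (Nat.mod_lt _ hp.pos) h1).lt_or_eq with hlt' | heq
    · omega
    · exfalso
      rw [heq, Nat.add_assoc] at h
      have h2 : p * (x % p) ≡ p * (y % p) + z ^ 2 [MOD p ^ 2] :=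
        Nat.ModEq.add_left_cancel' _ h
      have h3 : p ∣ p * (y % p) + z ^ 2 :=
        ((h2.of_dvd hp2).dvd_iff dvd_rfl).1 (dvd_mul_right _ _)
      have h4 : p ∣ z := hp.dvd_of_dvd_pow ((Nat.dvd_add_right (dvd_mul_right _ _)).1 h3)
      have h5 : p * (y % p) + z ^ 2 ≡ p * (y % p) + 0 [MOD p ^ 2] :=
        Nat.ModEq.add_left _ (Nat.modEq_zero_iff_dvd.2 (pow_dvd_pow_of_dvd h4 2))
      rw [add_zero] at h5
      have h6 : p * (x % p) ≡ p * (y % p) [MOD p * p] := by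
        rw [← sq]
        exact h2.trans h5
      have h7 : x % p % p = y % p % p := Nat.ModEq.mul_left_cancel' hp.ne_zero h6
      rw [Nat.mod_mod, Nat.mod_mod] at h7
      exact hne (by rw [heq, h7])

end Vale.Agent.P042
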