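import Vale.Agent.P042.Growth

/-!
The blocks used for the exponent `34 / 45`: a set modulo 16 and transitive lists for ten primes.
-/

namespace Vale.Agent.P042

theorem isBlock_two : IsBlock 4 10 6 := by
  refine ⟨{1, 4, 6, 7, 9, 10, 11, 12, 14, 15},
    fun s => [0, 5, 0, 0, 0, 0, 5, 2, 0, 5, 4, 1, 0, 0, 3, 0].getD s 0, by decide, by decide,
    by decide, ?_⟩
  have key : ∀ s ∈ ({1, 4, 6, 7, 9, 10, 11, 12, 14, 15} : Finset ℕ),
      ∀ s' ∈ ({1, 4, 6, 7, 9, 10, 11, 12, 14, 15} : Finset ℕ), ∀ z < 16, s ≠ s' →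
      s % 16 = (s' + z ^ 2) % 16 → [0, 5, 0, 0, 0, 0, 5, 2, 0, 5, 4, 1, 0, 0, 3, 0].getD s 0 <
        [0, 5, 0, 0, 0, 0, 5, 2, 0, 5, 4, 1, 0, 0, 3, 0].getD s' 0 := by
    decide +kernel
  intro s hs s' hs' z hne h
  refine key s hs s' hs' (z % 16) (Nat.mod_lt _ (by norm_num)) hne ?_
  rw [Nat.ModEq] at h
  rw [show (4 : ℕ) ^ 2 = 16 by norm_num] at h
  rw [h, Nat.add_mod, Nat.pow_mod, ← Nat.add_mod]

theorem isBlock_3 : IsBlock 3 6 2 :=
  isBlock_chain (by norm_num : Nat.Prime 3) [0, 1] (by decide) (by decide)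
    (by decide +kernel)

theorem isBlock_11 : IsBlock 11 44 4 :=
  isBlock_chain (by norm_num : Nat.Prime 11) [0, 1, 4, 5] (by decide) (by decide)
    (by decide +kernel)

theorem isBlock_31 : IsBlock 31 217 7 :=
  isBlock_chain (by norm_num : Nat.Prime 31) [0, 1, 8, 5, 2, 9, 10] (by decide) (by decide)
    (by decide +kernel)

theorem isBlock_7 : IsBlock 7 21 3 :=
  isBlock_chain (by norm_num : Nat.Prime 7) [0, 1, 2] (by decide) (by decide)
    (by decide +kernel)

theorem isBlock_19 : IsBlock 19 95 5 :=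
  isBlock_chain (by norm_num : Nat.Prime 19) [0, 1, 6, 17, 7] (by decide) (by decide)
    (by decide +kernel)

theorem isBlock_59 : IsBlock 59 531 9 :=
  isBlock_chain (by norm_num : Nat.Prime 59) [0, 1, 20, 29, 27, 21, 46, 49, 36] (by decide) (by decide)
    (by decide +kernel)

theorem isBlock_103 : IsBlock 103 1133 11 :=
  isBlock_chain (by norm_num : Nat.Prime 103) [0, 1, 29, 92, 2, 61, 17, 30, 93, 18, 19] (by decide) (by decide)
    (by decide +kernel)

theorem isBlock_43 : IsBlock 43 301 7 :=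
  isBlock_chain (by norm_num : Nat.Prime 43) [0, 1, 10, 14, 11, 24, 25] (by decide) (by decide)
    (by decide +kernel)

theorem isBlock_71 : IsBlock 71 639 9 :=
  isBlock_chain (by norm_num : Nat.Prime 71) [0, 1, 37, 20, 6, 30, 9, 49, 38] (by decide) (by decide)
    (by decide +kernel)

theorem isBlock_23 : IsBlock 23 115 5 :=
  isBlock_chain (by norm_num : Nat.Prime 23) [0, 1, 2, 3, 4] (by decide) (by decide)
    (by decide +kernel)

theorem exists_block_exponent :
    ∃ M C K : ℕ, 0 < M ∧ 0 < C ∧ 2 ≤ K * M ^ 2 ∧ IsBlock M C K ∧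
      (K * M ^ 2) ^ 34 ≤ C ^ 45 := by
  have h0 : IsBlock (4 ^ 83) (10 ^ 83) (6 ^ 83) := isBlock_two.pow (by norm_num) 83
  have h1 := IsBlock.prod (by decide +kernel) (by norm_num) (by norm_num) h0
    (IsBlock.pow (by norm_num) isBlock_3 215)
  have h2 := IsBlock.prod (by decide +kernel) (by norm_num) (by norm_num) h1
    (IsBlock.pow (by norm_num) isBlock_11 107)
  have h3 := IsBlock.prod (by decide +kernel) (by norm_num) (by norm_num) h2
    (IsBlock.pow (by norm_num) isBlock_31 76)
  have h4 := IsBlock.prod (by decide +kernel) (by norm_num) (by norm_num) h3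
    (IsBlock.pow (by norm_num) isBlock_7 135)
  have h5 := IsBlock.prod (by decide +kernel) (by norm_num) (by norm_num) h4
    (IsBlock.pow (by norm_num) isBlock_19 92)
  have h6 := IsBlock.prod (by decide +kernel) (by norm_num) (by norm_num) h5
    (IsBlock.pow (by norm_num) isBlock_59 67)
  have h7 := IsBlock.prod (by decide +kernel) (by norm_num) (by norm_num) h6
    (IsBlock.pow (by norm_num) isBlock_103 62)
  have h8 := IsBlock.prod (by decide +kernel) (by norm_num) (by norm_num) h7
    (IsBlock.pow (by norm_num) isBlock_43 76)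
  have h9 := IsBlock.prod (by decide +kernel) (by norm_num) (by norm_num) h8
    (IsBlock.pow (by norm_num) isBlock_71 67)
  have h10 := IsBlock.prod (by decide +kernel) (by norm_num) (by norm_num) h9
    (IsBlock.pow (by norm_num) isBlock_23 92)
  refine ⟨_, _, _, ?_, ?_, ?_, h10, ?_⟩
  all_goals decide +kernel

end Vale.Agent.P042
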