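import Vale.Agent.P042.Blocks

/-!
From a ranked residue block to large sets of integers without square differences.
-/

namespace Vale.Agent.P042

theorem exists_free_pow {M C K : ℕ} (hM : 0 < M) (h : IsBlock M C K) (n : ℕ) :
    ∃ A : Finset ℕ, A.card = C ^ n ∧ (∀ a ∈ A, a < (K * M ^ 2) ^ n) ∧
      ∀ a ∈ A, ∀ b ∈ A, ∀ z : ℕ, 1 ≤ z → a ≠ b + z ^ 2 := by
  obtain ⟨R, f, hc, hlt, hf, hp⟩ := h
  have hQ : 0 < M ^ 2 := pow_pos hM 2
  induction n with
  | zero =>
    refine ⟨{0}, by simp, by simp, ?_⟩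
    intro a ha b hb z hz
    simp only [Finset.mem_singleton] at ha hb
    subst ha hb
    have : 1 ≤ z ^ 2 := Nat.one_le_pow _ _ hz
    omega
  | succ n ih =>
    obtain ⟨A, hA, hAlt, hfree⟩ := ih
    set N := (K * M ^ 2) ^ n with hN
    refine ⟨(R ×ˢ A).image fun x => x.1 + M ^ 2 * (f x.1 * N + x.2), ?_, ?_, ?_⟩
    · rw [Finset.card_image_of_injOn, Finset.card_product, hA, hc, pow_succ']
      rintro ⟨s, a⟩ hx ⟨s', a'⟩ hy he
      simp only [Finset.mem_coe, Finset.mem_product] at hx hy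
      simp only at he
      have e1 := congrArg (· % M ^ 2) he
      have e2 := congrArg (· / M ^ 2) he
      simp only [Nat.add_mul_mod_self_left, Nat.mod_eq_of_lt (hlt s hx.1),
        Nat.mod_eq_of_lt (hlt s' hy.1)] at e1
      subst e1
      simp only [Nat.add_mul_div_left _ _ hQ, Nat.div_eq_of_lt (hlt s hx.1), zero_add] at e2
      rw [Nat.add_left_cancel e2]
    all_goals simp only [Finset.forall_mem_image, Prod.forall, Finset.mem_product, and_imp]
    · intro s a hs ha
      have h1 := hlt s hs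
      have h2 : f s * N + a + 1 ≤ (f s + 1) * N := by
        rw [add_mul, one_mul]
        have := hAlt a ha
        omega
      have h3 : (f s + 1) * N ≤ K * N := Nat.mul_le_mul_right _ (hf s hs)
      have h4 : M ^ 2 * (f s * N + a + 1) ≤ M ^ 2 * (K * N) :=
        Nat.mul_le_mul_left _ (h2.trans h3)
      rw [pow_succ' (K * M ^ 2) n, ← hN]
      calc s + M ^ 2 * (f s * N + a) < M ^ 2 + M ^ 2 * (f s * N + a) := by omega
        _ = M ^ 2 * (f s * N + a + 1) := by ring
        _ ≤ M ^ 2 * (K * N) := h4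
        _ = K * M ^ 2 * N := by ring
    · intro s a hs ha s' a' hs' ha' z hz he
      have h1 : s ≡ s' + z ^ 2 [MOD M ^ 2] := by
        have e1 := congrArg (· % M ^ 2) he
        simp only [Nat.add_mul_mod_self_left, add_right_comm _ (M ^ 2 * (f s' * N + a'))] at e1
        exact e1
      by_cases hss : s = s'
      · subst hss
        have hz2 : M ^ 2 ∣ z ^ 2 := by
          have h0 : s + 0 ≡ s + z ^ 2 [MOD M ^ 2] := by rwa [add_zero]
          exact Nat.modEq_zero_iff_dvd.1 (Nat.ModEq.add_left_cancel' s h0).symm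
        obtain ⟨w, rfl⟩ := (Nat.pow_dvd_pow_iff two_ne_zero).1 hz2
        have h2 : M ^ 2 * (f s * N + a) = M ^ 2 * (f s * N + a' + w ^ 2) := by
          rw [mul_pow] at he
          rw [mul_add (M ^ 2) (f s * N + a')]
          omega
        have h3 := Nat.eq_of_mul_eq_mul_left hQ h2
        exact hfree a ha a' ha' w (Nat.pos_of_mul_pos_left hz) (by omega)
      · have h2 : (f s + 1) * N ≤ f s' * N :=
          Nat.mul_le_mul_right _ (hp s hs s' hs' z hss h1)
        rw [add_mul, one_mul] at h2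
        have h3 := hAlt a ha
        have h4 : M ^ 2 * (f s * N + a + 1) ≤ M ^ 2 * (f s' * N + a') :=
          Nat.mul_le_mul_left _ (by omega)
        rw [mul_add (M ^ 2) (f s * N + a) 1, mul_one] at h4
        have h5 := hlt s hs
        omega

/-- A block with `(K M ^ 2) ^ a ≤ C ^ b` gives square-difference-free sets of size `N ^ (a / b)`,
up to a constant. -/
theorem exists_free_rpow {M C K a b : ℕ} (hM : 0 < M) (hC : 0 < C) (hB : 2 ≤ K * M ^ 2)
    (ha : 0 < a) (hb : 0 < b) (h : IsBlock M C K) (hab : (K * M ^ 2) ^ a ≤ C ^ b) :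
    ∃ c : ℝ, 0 < c ∧ ∀ N : ℕ, ∃ A : Finset ℕ, A ⊆ Finset.Icc 1 N ∧
      (∀ x ∈ A, ∀ y ∈ A, ∀ n : ℕ, 1 ≤ n → (x : ℤ) - y ≠ (n : ℤ) ^ 2) ∧
      c * (N : ℝ) ^ ((a : ℝ) / b) ≤ A.card := by
  refine ⟨(C : ℝ)⁻¹, by positivity, fun N => ?_⟩
  rcases Nat.eq_zero_or_pos N with rfl | hN
  · refine ⟨∅, by simp, by simp, ?_⟩
    rw [Nat.cast_zero, Real.zero_rpow (by positivity)]
    simp
  set n := Nat.log (K * M ^ 2) N with hn
  obtain ⟨A, hA, hAlt, hfree⟩ := exists_free_pow hM h n
  have hpow : (K * M ^ 2) ^ n ≤ N := Nat.pow_log_le_self _ (by omega)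
  refine ⟨A.image (· + 1), ?_, ?_, ?_⟩
  · intro x hx
    obtain ⟨y, hy, rfl⟩ := Finset.mem_image.1 hx
    have := hAlt y hy
    rw [Finset.mem_Icc]
    omega
  · simp only [Finset.forall_mem_image]
    intro x hx y hy z hz he
    have := hfree x hx y hy z hz
    push_cast at he
    apply this
    zify
    linarith
  · rw [Finset.card_image_of_injective _ (add_left_injective 1), hA, Nat.cast_pow,
      inv_mul_le_iff₀ (by positivity), ← pow_succ']
    set B : ℕ := K * M ^ 2
    have h1 : (N : ℝ) ≤ (B : ℝ) ^ (n + 1) := by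
      exact_mod_cast (Nat.lt_pow_succ_log_self (by omega) N).le
    have h2 : (B : ℝ) ^ ((a : ℝ) / b) ≤ C := by
      rw [div_eq_mul_inv, Real.rpow_mul (Nat.cast_nonneg B), Real.rpow_natCast,
        Real.rpow_inv_le_iff_of_pos (by positivity) (Nat.cast_nonneg C) (by positivity),
        Real.rpow_natCast]
      exact_mod_cast hab
    calc (N : ℝ) ^ ((a : ℝ) / b) ≤ ((B : ℝ) ^ (n + 1)) ^ ((a : ℝ) / b) :=
          Real.rpow_le_rpow (Nat.cast_nonneg N) h1 (by positivity)
      _ = ((B : ℝ) ^ ((a : ℝ) / b)) ^ (n + 1) :=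
          (Real.rpow_pow_comm (Nat.cast_nonneg B) _ _).symm
      _ ≤ (C : ℝ) ^ (n + 1) := pow_le_pow_left₀ (Real.rpow_nonneg (Nat.cast_nonneg B) _) h2 _

end Vale.Agent.P042
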